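import Vale.Agent.P057GA.Wit
import Mathlib.Topology.MetricSpace.Sequences
import Mathlib.Analysis.Normed.Module.FiniteDimension
import Mathlib.Algebra.Order.Round

/-! Two witnesses remove the fourth generator; the torus of forms of degree zero. -/

set_option linter.all false

open Finset Filter Topology

namespace Vale.Agent.P057PI

open Vale.Agent.P057GA

noncomputable section

variable {Mon : Type} {Sl : Mon → Type} [∀ μ, Fintype (Sl μ)] [∀ μ, DecidableEq (Sl μ)]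
  {Λ : Type} [AddCommGroup Λ]

/-- the alternating sum of four forms on the joint system over four generators -/
def L4 (Sl : Mon → Type) [∀ μ, Fintype (Sl μ)] (φ1 φ2 φ3 φ4 : Mon → ℝ) : JF Sl (Fin 4) ℝ :=
  pt ![1, 0, 1, 0] φ1 - pt ![1, 0, 0, 1] φ2 - pt ![0, 1, 1, 0] φ3 + pt ![0, 1, 0, 1] φ4

theorem tup4 {a b c d : Λ} {f : Fin 4 → Λ} (h0 : a = f 0) (h1 : b = f 1) (h2 : c = f 2)
    (h3 : d = f 3) : ![a, b, c, d] = f := by
  funext i
  match i with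
  | 0 => exact h0
  | 1 => exact h1
  | 2 => exact h2
  | 3 => exact h3

theorem sub_L4 {g : ℕ} (m : Fin 4 → Fin g → ℤ) (p1 p2 p3 p4 : Fin g → ℤ) (c1 c2 c3 c4 : Mon → ℝ)
    (h1 : (fun j => ∑ j', ![1, 0, 1, 0] j' * m j' j) = p1)
    (h2 : (fun j => ∑ j', ![1, 0, 0, 1] j' * m j' j) = p2)
    (h3 : (fun j => ∑ j', ![0, 1, 1, 0] j' * m j' j) = p3)
    (h4 : (fun j => ∑ j', ![0, 1, 0, 1] j' * m j' j) = p4) :
    sub m (L4 Sl c1 c2 c3 c4) = pt p1 c1 - pt p2 c2 - pt p3 c3 + pt p4 c4 := by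
  rw [L4, sub_add', sub_sub', sub_sub', sub_pt, sub_pt, sub_pt, sub_pt, h1, h2, h3, h4]

def m1 : Fin 4 → Fin 5 → ℤ :=
  ![![0, 0, 0, 1, 0], ![0, 0, 1, 1, 0], ![0, 1, 0, -1, 0], ![1, 0, 0, -1, 0]]
def m2 : Fin 4 → Fin 5 → ℤ :=
  ![![0, 0, 0, 0, 1], ![0, 0, 1, 0, 1], ![0, 1, 0, 0, -1], ![1, 0, 0, 0, -1]]
def k1 : Fin 5 → Fin 5 → ℤ :=
  ![![1, 0, 0, 0, 0], ![0, 1, 0, 0, 0], ![0, 0, 1, 0, 0], ![0, 0, 0, 0, 0], ![0, 0, 0, 0, 1]]
def k2 : Fin 5 → Fin 5 → ℤ :=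
  ![![1, 0, 0, 0, 0], ![0, 1, 0, 0, 0], ![0, 0, 1, 0, 0], ![0, 0, 0, 1, 0], ![0, 0, 0, 0, 0]]
def pj : Fin 5 → Fin 3 → ℤ := ![![1, 0, 0], ![0, 1, 0], ![0, 0, 1], ![0, 0, 0], ![0, 0, 0]]
def ic : Fin 3 → Fin 5 → ℤ := ![![1, 0, 0, 0, 0], ![0, 1, 0, 0, 0], ![0, 0, 1, 0, 0]]

/-- two witnesses remove the fourth generator -/
theorem wit4 (e : Emb Sl Λ) {K M : ℝ} {d : ℕ} {x y τ t1 t2 : Λ} (hR : e.Rig K ![x, y, τ, t1, t2])
    {φ1 φ2 φ3 φ4 : Mon → ℝ} {I1 I2 : JF Sl (Fin 4) ℤ}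
    (h1 : Bd M (L4 Sl φ1 φ2 φ3 φ4 - e.io 4 ![t1, t1 + τ, y - t1, x - t1] I1))
    (h2 : Bd M (L4 Sl φ1 φ2 φ3 φ4 - e.io 4 ![t2, t2 + τ, y - t2, x - t2] I2))
    (hd : ∀ μ, Fintype.card (Sl μ) ≤ d) (hM : 0 ≤ M) (hK : 2 * (4 ^ d * M) ≤ K) :
    ∃ J : JF Sl (Fin 3) ℤ, Bd (4 ^ d * M)
      (pt n1 φ2 + pt n4 φ3 - pt n2 φ1 - pt n3 φ4 - e.io 3 ![x, y, τ] J) := by
  have e1 : ![t1, t1 + τ, y - t1, x - t1] = fun j' => ∑ j, m1 j' j • ![x, y, τ, t1, t2] j := by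
    apply tup4 <;> refine Eq.trans ?_ (Emb.sum5 ..) <;> module
  have e2 : ![t2, t2 + τ, y - t2, x - t2] = fun j' => ∑ j, m2 j' j • ![x, y, τ, t1, t2] j := by
    apply tup4 <;> refine Eq.trans ?_ (Emb.sum5 ..) <;> module
  have e3 : ![x, y, τ] = fun j' => ∑ j, ic j' j • ![x, y, τ, t1, t2] j := by
    apply Emb.tup3 <;> refine Eq.trans ?_ (Emb.sum5 ..) <;> module
  have b1 : ∀ j, ∑ j', |m1 j' j| ≤ 4 := by decide
  have b2 : ∀ j, ∑ j', |m2 j' j| ≤ 4 := by decide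
  have b3 : ∀ j, ∑ j', |pj j' j| ≤ 1 := by decide
  have c1 := h1.sub_le (B := 4) m1 (by norm_num) (fun j => by exact_mod_cast b1 j) hd hM
  have c2 := h2.sub_le (B := 4) m2 (by norm_num) (fun j => by exact_mod_cast b2 j) hd hM
  rw [sub_sub', e1, ← e.nat, sub_L4 _ ![0, 1, 0, 0, 0] ![1, 0, 0, 0, 0] ![0, 1, 1, 0, 0]
    ![1, 0, 1, 0, 0] _ _ _ _ (by decide) (by decide) (by decide) (by decide)] at c1
  rw [sub_sub', e2, ← e.nat, sub_L4 _ ![0, 1, 0, 0, 0] ![1, 0, 0, 0, 0] ![0, 1, 1, 0, 0]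
    ![1, 0, 1, 0, 0] _ _ _ _ (by decide) (by decide) (by decide) (by decide)] at c2
  have hz : sub m1 I1 - sub m2 I2 = 0 := by
    refine hR _ (Bd.mono (M := 4 ^ d * M + 4 ^ d * M) ?_ (by linarith))
    rw [map_sub]
    convert c2.sub c1 using 1
    abel
  have q1 : sub k1 (sub m1 I1) = sub m1 I1 := by
    rw [sub_eq_zero.1 hz, sub_sub_eq, (by decide : (fun a j => ∑ j', m2 a j' * k1 j' j) = m2)]
  have q2 : sub k2 (sub m1 I1) = sub m1 I1 := by
    rw [sub_sub_eq, (by decide : (fun a j => ∑ j', m1 a j' * k2 j' j) = m1)]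
  have q3 : sub ic (sub pj (sub m1 I1)) = sub m1 I1 := by
    rw [sub_sub_eq ic pj, (by decide : (fun a j => ∑ j', pj a j' * ic j' j) =
      fun a j => ∑ j', k1 a j' * k2 j' j), ← sub_sub_eq k2 k1, q1, q2]
  rw [← q3, e.nat, ← e3] at c1
  have c3 := (c1.sub_le (B := 1) pj le_rfl (fun j => by exact_mod_cast b3 j) hd
    (by positivity)).neg
  rw [sub_sub', sub_sub_eq pj ic, (by decide : (fun a j => ∑ j', ic a j' * pj j' j) =
    fun a j => if a = j then 1 else 0), sub_id, sub_add', sub_sub', sub_sub', sub_pt, sub_pt,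
    sub_pt, sub_pt, one_pow, one_mul,
    (by decide : (fun j => ∑ j', ![0, 1, 0, 0, 0] j' * pj j' j) = n2),
    (by decide : (fun j => ∑ j', ![1, 0, 0, 0, 0] j' * pj j' j) = n1),
    (by decide : (fun j => ∑ j', ![0, 1, 1, 0, 0] j' * pj j' j) = n4),
    (by decide : (fun j => ∑ j', ![1, 0, 1, 0, 0] j' * pj j' j) = n3)] at c3
  refine ⟨-sub pj (sub m1 I1), ?_⟩
  rw [map_neg]
  convert c3 using 1
  abel

open Classical in
theorem pt_zero {J R : Type} [CommRing R] (c : Mon → R) (μ : Mon) (φ : Sl μ → J) :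
    (pt 0 c : JF Sl J R) μ φ = if Nonempty (Sl μ) then 0 else c μ := by
  unfold pt
  split_ifs with h
  · obtain ⟨s⟩ := h
    rw [prod_eq_zero (mem_univ s) (by simp), zero_mul]
  · have : IsEmpty (Sl μ) := not_nonempty_iff.1 h
    simp

open Classical in
/-- integer forms of degree zero do not see the point -/
theorem io1_deg0 (e : Emb Sl Λ) (y : Λ) {k : Mon → ℤ} (hk : ∀ μ, Nonempty (Sl μ) → k μ = 0)
    (μ : Mon) : e.io1 y k μ = if Nonempty (Sl μ) then 0 else e.io1 0 k μ := by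
  have h := e.io_pt (fun _ : Fin 1 => y) 0 k
  have h1 : (pt 0 k : JF Sl (Fin 1) ℤ) = fun μ _ => k μ := by
    funext μ φ
    rw [pt_zero]
    split_ifs with a
    · exact (hk μ a).symm
    · rfl
  rw [h1] at h
  have h2 := congrFun (congrFun h μ) fun _ => 0
  rw [pt_zero] at h2
  simp only [Pi.zero_apply, zero_smul, sum_const_zero] at h2
  exact h2

/-- a rigid tuple makes the torus of degree zero rigid -/
theorem rig0 (e : Emb Sl Λ) {K : ℝ} (hK : 0 ≤ K) {g : ℕ} {x : Fin g → Λ} (hR : e.Rig K x)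
    {k : Mon → ℤ} (hk : ∀ μ, Nonempty (Sl μ) → k μ = 0)
    (h : ∀ μ, IsEmpty (Sl μ) → |e.io1 0 k μ| ≤ K) : k = 0 := by
  classical
  have h1 := hR (pt 0 k) fun μ φ => by
    rw [e.io_pt, pt_zero]
    split_ifs with a
    · simpa using hK
    · simpa using h μ (not_nonempty_iff.1 a)
  funext μ
  by_cases a : Nonempty (Sl μ)
  · exact hk μ a
  · have := congrFun (congrFun h1 μ) fun s => absurd ⟨s⟩ a
    rwa [pt_zero, if_neg a] at this

/-- a linear map that separates the integer points is injective -/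
theorem inj_of_sep {κ : Type} [Fintype κ] (T : (κ → ℝ) →ₗ[ℝ] (κ → ℝ)) {K : ℝ} (hK : 0 < K)
    (h : ∀ k : κ → ℤ, ‖T fun i => k i‖ ≤ K → k = 0) : Function.Injective T := by
  refine (injective_iff_map_eq_zero _).2 fun v hv => ?_
  let k : ℕ → κ → ℤ := fun j i => round (j * v i)
  let T' := LinearMap.toContinuousLinearMap T
  have hb : ∀ j, (T fun i => k j i) ∈ Metric.closedBall (0 : κ → ℝ) ‖T'‖ := fun j => by
    have e : (T fun i => k j i) = T' ((fun i => (k j i : ℝ)) - (j : ℝ) • v) := by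
      change _ = T _
      rw [map_sub, map_smul, hv, smul_zero, sub_zero]
    rw [mem_closedBall_zero_iff, e]
    refine (T'.le_opNorm _).trans (mul_le_of_le_one_right (norm_nonneg _) ?_)
    refine (pi_norm_le_iff_of_nonneg zero_le_one).2 fun i => ?_
    have := abs_sub_round (j * v i)
    rw [abs_sub_comm] at this
    exact le_trans (b := 1 / 2) this (by norm_num)
  obtain ⟨a, -, φ, hφ, ha⟩ := tendsto_subseq_of_bounded Metric.isBounded_closedBall hb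
  obtain ⟨N, hN⟩ := Metric.cauchySeq_iff'.1 ha.cauchySeq K hK
  have e : ∀ j ≥ N, k (φ j) = k (φ N) := fun j hj => sub_eq_zero.1 (h _ (by
    have := (hN j hj).le
    rw [dist_eq_norm, Function.comp, Function.comp, ← map_sub] at this
    refine le_trans (le_of_eq ?_) this
    congr 2
    funext i
    simp))
  funext i
  by_contra h0
  have p0 : 0 < |v i| := abs_pos.2 h0
  obtain ⟨j, hj⟩ := exists_nat_gt (1 / |v i|)
  have a1 := abs_sub_round ((φ (N + j) : ℝ) * v i)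
  have a2 := abs_sub_round ((φ N : ℝ) * v i)
  have a3 : round ((φ (N + j) : ℝ) * v i) = round ((φ N : ℝ) * v i) :=
    congrFun (e (N + j) (by omega)) i
  have a4 : φ N + j ≤ φ (N + j) := hφ.add_le_nat j N |>.trans_eq' (by ring) |>.trans_eq (by ring_nf)
  have a5 : (j : ℝ) ≤ (φ (N + j) : ℝ) - φ N := by
    have : ((φ N + j : ℕ) : ℝ) ≤ φ (N + j) := by exact_mod_cast a4
    push_cast at this
    linarith
  rw [a3] at a1
  have a6 : |((φ (N + j) : ℝ) - φ N) * v i| ≤ 1 := by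
    rw [abs_le] at a1 a2 ⊢
    constructor <;> linarith
  rw [abs_mul, abs_of_nonneg ((Nat.cast_nonneg j).trans a5)] at a6
  rw [div_lt_iff₀ p0] at hj
  nlinarith

end

end Vale.Agent.P057PI
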