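import Vale.Agent.P057T1.Four

/-!
The law of finitely many copies of one vertex.
-/

set_option linter.all false

open Matrix Finset
open scoped Real
open Vale.Agent.P267.H775 Vale.Agent.P057G Vale.Agent.P057MA Vale.Agent.P057HU Vale.Agent.P057T1

namespace Vale.Agent.P057PI

noncomputable section

/-- product weights -/
theorem wt_pi {C A : Type*} [Fintype C] {w : C → A → ℝ} (h : ∀ c, Wt (w c)) :
    Wt (fun x : C → A => ∏ c, w c (x c)) ∧ ∑' x : C → A, ∏ c, w c (x c) = ∏ c, ∑' a, w c a := by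
  have key : ∀ (n : ℕ) (w : Fin n → A → ℝ), (∀ c, Wt (w c)) →
      Wt (fun x : Fin n → A => ∏ c, w c (x c)) ∧
        ∑' x : Fin n → A, ∏ c, w c (x c) = ∏ c, ∑' a, w c a := by
    intro n
    induction n with
    | zero =>
      intro w _
      exact ⟨⟨fun _ => by simp, Summable.of_finite⟩, by simp⟩
    | succ n ih =>
      intro w h
      obtain ⟨a, b⟩ := ih (fun c => w c.succ) fun c => h _
      let e := Fin.consEquiv fun _ : Fin (n + 1) => A
      have e1 : (fun x : Fin (n + 1) → A => ∏ c, w c (x c)) ∘ e =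
          fun p : A × (Fin n → A) => w 0 p.1 * ∏ c : Fin n, w c.succ (p.2 c) := by
        funext p
        simp [e, Fin.prod_univ_succ, Fin.consEquiv]
      refine ⟨⟨fun x => prod_nonneg fun c _ => (h c).1 _, e.summable_iff.1 ?_⟩, ?_⟩
      · rw [e1]
        exact ((h 0).prod a).2
      · rw [← e.tsum_eq, Fin.prod_univ_succ, ← b, ← (h 0).tsum_prod a]
        exact tsum_congr fun p => congrFun e1 p
  let f := Fintype.equivFin C
  obtain ⟨a, b⟩ := key _ (fun c => w (f.symm c)) fun c => h _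
  let e : (C → A) ≃ (Fin (Fintype.card C) → A) := Equiv.arrowCongr f (Equiv.refl A)
  have e1 : (fun x : C → A => ∏ c, w c (x c)) =
      (fun x : Fin (Fintype.card C) → A => ∏ c, w (f.symm c) (x c)) ∘ e := by
    funext x
    simp only [Function.comp, e, Equiv.arrowCongr_apply, Equiv.coe_refl, id]
    exact (f.symm.prod_comp fun c => w c (x c)).symm
  refine ⟨⟨fun x => prod_nonneg fun c _ => (h c).1 _, ?_⟩, ?_⟩
  · rw [e1]
    exact e.summable_iff.2 a.2
  · rw [e1, ← f.symm.prod_comp, ← b, ← e.tsum_eq]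
    rfl

variable {V ι C : Type*} [DecidableEq ι] [Fintype ι] [DecidableEq V] [Fintype V] [DecidableEq C]
  [Fintype C] {S : MS V ι} {c0 : C}

/-- the transversal through the copy `c` of `w` -/
def chC (c0 : C) (w : V) (c : C) : V → C := Function.update (fun _ => c0) w c

/-- the copy `c` of an index -/
abbrev cqC (S : MS V ι) (c0 : C) (w : V) (c : C) : ι → BI S.fc c0 := cp S.fc c0 (chC c0 w c)

/-- the indices of all copies -/
def qC (S : MS V ι) (c0 : C) (q : Finset ι) (w : V) : Finset (BI S.fc c0) :=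
  univ.biUnion fun c => q.image (cqC S c0 w c)

/-- the base copies of a set of vertices -/
def aC (c0 : C) (A : Finset V) : Finset (V × C) := A.image fun v => (v, c0)

/-- the point of the copies with the fibre points `x` over `y` -/
def asmC (S : MS V ι) (c0 : C) (r : Finset ι) (w : V) (y : ι → ℤ)
    (x : C → ↥(r ∩ S.st w) → ℤ) : BI S.fc c0 → ℤ :=
  fun i => if i ∈ qC S c0 r w then put (r ∩ S.st w) (x (i.1.2 w)) y i.1.1 else 0

theorem cqC_out {w : V} {j : ι} (hj : j ∉ S.st w) (c c' : C) :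
    cqC S c0 w c j = cqC S c0 w c' j :=
  cp_congr fun v hv => by
    have : v ≠ w := fun e => hj (S.mem_st.2 (e ▸ hv))
    simp only [chC, Function.update_of_ne this]

theorem mem_qC {r : Finset ι} {w : V} {i : BI S.fc c0} :
    i ∈ qC S c0 r w ↔ ∃ c, ∃ j ∈ r, cqC S c0 w c j = i := by simp [qC]

theorem cqC_mem {q : Finset ι} {w : V} {j : ι} (hj : j ∈ q) (c : C) :
    cqC S c0 w c j ∈ qC S c0 q w := mem_qC.2 ⟨c, j, hj, rfl⟩

theorem cqC_sts {A : Finset V} {w : V} (hw : w ∉ A) (c : C) (j : ι) :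
    cqC S c0 w c j ∈ (blow S c0).sts (aC c0 A) ↔ j ∈ S.sts A := by
  rw [MS.mem_sts, MS.mem_sts]
  constructor
  · rintro ⟨u, h1, h2⟩
    obtain ⟨v, h3, rfl⟩ := mem_image.1 h1
    exact ⟨v, h3, (mem_fc_blow.1 h2).1⟩
  · rintro ⟨v, h1, h2⟩
    refine ⟨(v, c0), mem_image_of_mem _ h1, mem_fc_blow.2 ⟨h2, ?_⟩⟩
    have : v ≠ w := fun e => hw (e ▸ h1)
    rw [cp_snd _ h2]; simp only [chC, Function.update_of_ne this]

theorem cls_qC {q : Finset ι} (hq : Cls S q) (w : V) : Cls (blow S c0) (qC S c0 q w) :=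
  ⟨fun i j a b hi => by
    obtain ⟨c, -, hc⟩ := mem_biUnion.1 hi
    exact mem_biUnion.2 ⟨c, mem_univ _, (hq.image_cp c0 _).blk i j a b hc⟩,
  fun i hi j hj => by
    obtain ⟨c, -, hc⟩ := mem_biUnion.1 hi
    exact mem_biUnion.2 ⟨c, mem_univ _, (hq.image_cp c0 _).dep i hc j hj⟩⟩

theorem cqC_w {w : V} {j : ι} (hj : j ∈ S.st w) (c : C) : (cqC S c0 w c j).1.2 w = c := by
  rw [cp_snd _ (S.mem_st.1 hj)]; simp [chC]

theorem asmC_cq {r : Finset ι} (w : V) (y : ι → ℤ) (x : C → ↥(r ∩ S.st w) → ℤ) (c : C)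
    {j : ι} (hj : j ∈ r) : asmC S c0 r w y x (cqC S c0 w c j) = put (r ∩ S.st w) (x c) y j := by
  rw [asmC, if_pos (cqC_mem hj c)]
  change put (r ∩ S.st w) (x ((cqC S c0 w c j).1.2 w)) y j = _
  by_cases h : j ∈ S.st w
  · rw [cqC_w h]
  · rw [put_neg _ _ fun a => h (mem_inter.1 a).2, put_neg _ _ fun a => h (mem_inter.1 a).2]

theorem cqC_st {w : V} (c c' : C) (j : ι) :
    cqC S c0 w c j ∈ (blow S c0).st (w, c') ↔ j ∈ S.st w ∧ c = c' := by
  rw [MS.mem_st, mem_fc_blow, MS.mem_st]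
  exact ⟨fun a => ⟨a.1, (cqC_w (S.mem_st.2 a.1) c).symm.trans a.2⟩,
    fun a => ⟨a.1, (cqC_w (S.mem_st.2 a.1) c).trans a.2⟩⟩

theorem qC_st (r : Finset ι) (w : V) (c : C) :
    qC S c0 r w ∩ (blow S c0).st (w, c) = (r ∩ S.st w).image (cqC S c0 w c) := by
  ext i
  rw [mem_inter, mem_qC, mem_image]
  constructor
  · rintro ⟨⟨c', j, hj, rfl⟩, h⟩
    obtain ⟨h1, rfl⟩ := (cqC_st c' c j).1 h
    exact ⟨j, mem_inter.2 ⟨hj, h1⟩, rfl⟩
  · rintro ⟨j, hj, rfl⟩
    exact ⟨⟨c, j, (mem_inter.1 hj).1, rfl⟩, (cqC_st c c j).2 ⟨(mem_inter.1 hj).2, rfl⟩⟩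

theorem qC_out (r : Finset ι) (w : V) :
    qC S c0 r w \ (blow S c0).sts (univ.image fun c : C => (w, c)) =
      (r \ S.st w).image (cqC S c0 w c0) := by
  have key : ∀ c j, cqC S c0 w c j ∈ (blow S c0).sts (univ.image fun c : C => (w, c)) ↔
      j ∈ S.st w := fun c j => by
    rw [MS.mem_sts]
    constructor
    · rintro ⟨u, h1, h2⟩
      obtain ⟨c', -, rfl⟩ := mem_image.1 h1
      exact ((cqC_st c c' j).1 ((blow S c0).mem_st.2 h2)).1
    · exact fun a => ⟨(w, c), mem_image_of_mem _ (mem_univ c),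
        (blow S c0).mem_st.1 ((cqC_st c c j).2 ⟨a, rfl⟩)⟩
  ext i
  rw [mem_sdiff, mem_qC, mem_image]
  constructor
  · rintro ⟨⟨c, j, hj, rfl⟩, h⟩
    rw [key] at h
    exact ⟨j, mem_sdiff.2 ⟨hj, h⟩, cqC_out h _ _⟩
  · rintro ⟨j, hj, rfl⟩
    exact ⟨⟨c0, j, (mem_sdiff.1 hj).1, rfl⟩, by rw [key]; exact (mem_sdiff.1 hj).2⟩

theorem qC_sdiff (q : Finset ι) {A : Finset V} {w : V} (hw : w ∉ A) :
    qC S c0 q w \ (blow S c0).sts (aC c0 A) = qC S c0 (q \ S.sts A) w := by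
  ext i
  rw [mem_sdiff, mem_qC, mem_qC]
  constructor
  · rintro ⟨⟨c, j, hj, rfl⟩, h⟩
    exact ⟨c, j, mem_sdiff.2 ⟨hj, by rwa [cqC_sts hw] at h⟩, rfl⟩
  · rintro ⟨c, j, hj, rfl⟩
    exact ⟨⟨c, j, (mem_sdiff.1 hj).1, rfl⟩, by rw [cqC_sts hw]; exact (mem_sdiff.1 hj).2⟩

theorem card_qC (q : Finset ι) (w : V) : (qC S c0 q w).card ≤ Fintype.card C * q.card := by
  refine card_biUnion_le.trans ((sum_le_card_nsmul _ _ _ fun c _ => card_image_le).trans ?_)
  simp

theorem card_aC (A : Finset V) : (aC c0 A).card = A.card :=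
  card_image_of_injective _ fun _ _ e => congrArg Prod.fst e

/-- admissible scalings: `σ c` on the copy `c` of the star of `w`, one on the rest of `r` -/
structure Sc (S : MS V ι) (c0 : C) (r : Finset ι) (w : V) (s : BI S.fc c0 → ℝ) (σ : C → ℝ) :
    Prop where
  fc : ∀ i j, (blow S c0).fc i = (blow S c0).fc j → s i = s j
  one : ∀ i, 1 ≤ s i
  pos : ∀ c, 0 < σ c
  st : ∀ c, ∀ j ∈ r ∩ S.st w, s (cqC S c0 w c j) = σ c
  out : ∀ j ∈ r \ S.st w, s (cqC S c0 w c0 j) = 1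

/-- the scaled system of copies -/
def dup (S : MS V ι) (c0 : C) (s : BI S.fc c0 → ℝ) : MS (V × C) (BI S.fc c0) :=
  (blow S c0).gram (gsc (blow S c0).G s)

/-- the standard scaling -/
def sg (S : MS V ι) (c0 : C) (w : V) (σ : C → ℝ) (i : BI S.fc c0) : ℝ :=
  if w ∈ S.fc i.1.1 then σ (i.1.2 w) else 1

theorem sc_sg (r : Finset ι) (w : V) {σ : C → ℝ} (h : ∀ c, 1 ≤ σ c) :
    Sc S c0 r w (sg S c0 w σ) σ := by
  refine ⟨fun i j e => ?_, fun i => ?_, fun c => one_pos.trans_le (h c), fun c j hj => ?_,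
    fun j hj => if_neg fun a => (mem_sdiff.1 hj).2 (S.mem_st.2 a)⟩
  · have a := fc_blow_sub.1 e.subset
    have b := fc_blow_sub.1 e.superset
    unfold sg
    by_cases hw : w ∈ S.fc i.1.1
    · rw [if_pos hw, if_pos (a.1 hw), a.2 w hw]
    · rw [if_neg hw, if_neg fun x => hw (b.1 x)]
  · unfold sg
    split_ifs
    exacts [h _, le_rfl]
  · exact (if_pos (S.mem_st.1 (mem_inter.1 hj).2)).trans (by rw [cqC_w (mem_inter.1 hj).2])

variable {r : Finset ι} {w : V} {s : BI S.fc c0 → ℝ} {σ : C → ℝ}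

theorem Sc.ok (hs : Sc S c0 r w s σ) (h : S.Ok) : (dup S c0 s).Ok :=
  ok_gsc (ok_blow h c0) hs.fc hs.one

theorem cen_dup (hc : S.Cen) (s : BI S.fc c0 → ℝ) : (dup S c0 s).Cen := (cen_blow hc c0).gram _

theorem cop_split (h : S.Ok) (hs : Sc S c0 r w s σ) :
    (∀ Z, ln2 (dup S c0 s) (qC S c0 r w) Z = ln2 S (r \ S.st w) (Z ∘ cqC S c0 w c0) +
      ∑ c, σ c ^ 2 * ln2 S (r ∩ S.st w) (Z ∘ cqC S c0 w c)) ∧
    ∀ y, vl (dup S c0 s).G (qC S c0 r w) =
      vl S.G (r \ S.st w) * ∏ c, vol (σ c ^ 2 • S.fg r w y) := by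
  have hb := ok_blow h c0
  obtain ⟨e1, e2⟩ := split_sts (hs.ok h) (qC S c0 r w) (univ.image fun c : C => (w, c))
    fun i _ a ha b hb h4 h5 => by
      obtain ⟨c, -, rfl⟩ := mem_image.1 ha
      obtain ⟨c', -, rfl⟩ := mem_image.1 hb
      exact congrArg (Prod.mk w) ((mem_fc_blow.1 h4).2.symm.trans (mem_fc_blow.1 h5).2)
  have inj : ∀ a ∈ (univ : Finset C), ∀ b ∈ (univ : Finset C),
      (w, a) = (w, b) → a = b := fun _ _ _ _ e => (Prod.ext_iff.1 e).2
  have k1 : ∀ c, ∀ i ∈ (r ∩ S.st w).image (cqC S c0 w c), s i = σ c := fun c i hi => by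
    obtain ⟨j, hj, rfl⟩ := mem_image.1 hi
    exact hs.st c j hj
  have k2 : ∀ i ∈ (r \ S.st w).image (cqC S c0 w c0), s i = 1 := fun i hi => by
    obtain ⟨j, hj, rfl⟩ := mem_image.1 hi
    exact hs.out j hj
  have k3 : ∀ c t Z, ln2 (blow S c0) (t.image (cqC S c0 w c)) Z = ln2 S t (Z ∘ cqC S c0 w c) :=
    fun c t Z => ln2_image (S' := blow S c0) (cp_inj _ _ _) (fun i _ j _ => G_cp h _ i j)
      (fun z i _ => p_cp h _ z i) Z
  constructor
  · intro Z
    rw [e1, sum_image inj]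
    change ln2 (MS.gram _ _) (qC S c0 r w \ (blow S c0).sts _) Z +
      ∑ c, ln2 (MS.gram _ _) (qC S c0 r w ∩ (blow S c0).st _) Z = _
    simp only [qC_out, qC_st, ln2_gsc k2, ln2_gsc (k1 _), k3, one_pow, one_mul]
  · intro y
    refine e2.trans ?_
    rw [prod_image inj]
    change vl (gsc _ _) (qC S c0 r w \ (blow S c0).sts _) *
      ∏ c, vl (gsc _ _) (qC S c0 r w ∩ (blow S c0).st _) = _
    rw [qC_out, vl_gsc _ one_pos k2, vl_cp h]
    simp only [one_pow, Real.sqrt_one, inv_one, one_mul]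
    congr 1
    refine prod_congr rfl fun c _ => ?_
    rw [qC_st, vl_gsc _ (hs.pos c) (k1 c), vl_cp h, vol_smul (pow_pos (hs.pos c) 2), h.vol_fg,
      card_image_of_injective _ (cp_inj _ _ _), Fintype.card_coe]

theorem wt_asmC (h : S.Ok) (hc : S.Cen) (hr : Cls S r) (hs : Sc S c0 r w s σ) {y : ι → ℤ}
    (hy : ∀ i, i ∉ r \ S.st w → y i = 0) (x : C → ↥(r ∩ S.st w) → ℤ) :
    (dup S c0 s).wt (qC S c0 r w) (asmC S c0 r w y x) =
      S.wt (r \ S.st w) y * ∏ c, gs (σ c ^ 2 • S.fg r w (toR y)) (toR (x c)) := by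
  have e : ∀ c, ∀ j ∈ r \ S.st w, (toR (asmC S c0 r w y x) ∘ cqC S c0 w c) j = toR y j :=
    fun c j hj => by
      rw [Function.comp, toR_apply, asmC_cq w y x c (mem_sdiff.1 hj).1,
        put_neg _ _ fun a => (mem_sdiff.1 hj).2 (mem_inter.1 a).2]; rfl
  have e0 : ∀ i ∉ qC S c0 r w, asmC S c0 r w y x i = 0 := fun i hi => if_neg hi
  rw [wt_eq, wt_eq, if_pos e0, if_pos hy, (cop_split h hs).1]
  simp only [gs, ← Real.exp_sum, ← Real.exp_add]
  congr 1
  rw [ln2_congr (z' := toR y) fun j hj => by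
    rw [e c0 j hj, cls_p h (hr.sdiff_st w) (e c0) hj], mul_add, neg_add, mul_sum,
    ← sum_neg_distrib]
  congr 1
  refine sum_congr rfl fun c _ => ?_
  rw [ln2_fg h hc hr w (toR y) _ (e c), qq_smul_mat]
  congr 4; funext j
  rw [Function.comp, toR_apply, asmC_cq w y x c (mem_inter.1 j.2).1, put_coe]; rfl

/-- the law of the copies -/
theorem cop_sum (h : S.Ok) (hc : S.Cen) (hr : Cls S r) (hs : Sc S c0 r w s σ)
    {g : (BI S.fc c0 → ℤ) → ℝ} {B : ℝ} (g1 : ∀ Y, |g Y| ≤ B) :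
    HasSum (fun y => S.wt (r \ S.st w) y * ∑' x : C → ↥(r ∩ S.st w) → ℤ,
        (∏ c, gs (σ c ^ 2 • S.fg r w (toR y)) (toR (x c))) * g (asmC S c0 r w y x))
      (∑' Y, (dup S c0 s).wt (qC S c0 r w) Y * g Y) := by
  let Ω := {y : ι → ℤ // ∀ i, i ∉ r \ S.st w → y i = 0}
  let e : Ω × (C → ↥(r ∩ S.st w) → ℤ) → BI S.fc c0 → ℤ := fun a => asmC S c0 r w a.1.1 a.2
  have he : Function.Injective e := by
    rintro ⟨y, x⟩ ⟨y', x'⟩ h4
    have h5 : ∀ k, ∀ j ∈ r, put (r ∩ S.st w) (x k) y.1 j = put (r ∩ S.st w) (x' k) y'.1 j :=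
      fun k j hj => by
        rw [← asmC_cq (c0 := c0) w _ _ k hj, ← asmC_cq (c0 := c0) w _ _ k hj]
        exact congrFun h4 _
    have h6 : x = x' := funext fun k => funext fun j => by
      simpa only [put_coe] using h5 k j (mem_inter.1 j.2).1
    have h7 : y = y' := Subtype.ext (funext fun j => by
      by_cases hj : j ∈ r \ S.st w
      · have h8 : j ∉ r ∩ S.st w := fun a => (mem_sdiff.1 hj).2 (mem_inter.1 a).2
        simpa only [put_neg _ _ h8] using h5 c0 j (mem_sdiff.1 hj).1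
      · rw [y.2 j hj, y'.2 j hj])
    rw [h6, h7]
  have hsum := (hs.ok h).summable_re (qC S c0 r w) g1
  have hz : ∀ Y ∉ Set.range e, (dup S c0 s).wt (qC S c0 r w) Y * g Y = 0 := fun Y hY => by
    rw [wt_eq, if_neg, zero_mul]
    intro h0
    refine hY ⟨(⟨fun j => if j ∈ r \ S.st w then Y (cqC S c0 w c0 j) else 0,
      fun j hj => if_neg hj⟩, fun c j => Y (cqC S c0 w c j)), funext fun i => ?_⟩
    by_cases hi : i ∈ qC S c0 r w
    · obtain ⟨c, j, hj, rfl⟩ := mem_qC.1 hi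
      refine (asmC_cq w _ _ c hj).trans ?_
      by_cases h1 : j ∈ S.st w
      · exact put_pos _ _ (mem_inter.2 ⟨hj, h1⟩)
      · rw [put_neg _ _ fun a => h1 (mem_inter.1 a).2]
        exact (if_pos (mem_sdiff.2 ⟨hj, h1⟩)).trans (congrArg Y (cqC_out h1 _ _))
    · rw [h0 i hi]
      exact if_neg hi
  have hs2 := (he.hasSum_iff hz).2 hsum.hasSum
  have h4 := hs2.prod_fiberwise fun y => (hs2.summable.prod_factor y).hasSum
  rw [← (Subtype.val_injective (p := fun y : ι → ℤ =>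
    ∀ i, i ∉ r \ S.st w → y i = 0)).hasSum_iff fun y hy => by
      have : ¬ ∀ i, i ∉ r \ S.st w → y i = 0 := fun a => hy ⟨⟨y, a⟩, rfl⟩
      rw [wt_eq, if_neg this, zero_mul]]
  refine HasSum.congr_fun h4 fun y => ?_
  rw [Function.comp, ← tsum_mul_left]
  refine tsum_congr fun x => ?_
  simp only [Function.comp, e]
  rw [wt_asmC h hc hr hs y.2, mul_assoc]

theorem mass_qC {V ι C : Type} [DecidableEq ι] [Fintype ι] [DecidableEq V] [Fintype V]
    [DecidableEq C] [Fintype C] {S : MS V ι} {c0 : C} (h : S.Ok) (hc : S.Cen) {q : Finset ι}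
    (hq : Cls S q) (w : V) {N : ℕ} {W η : ℝ} (hW : W ≠ 0) (hs : Smo S q N W η)
    (hN : Fintype.card C ≤ N) : (nar (blow S c0) W).mass (qC S c0 q w) ≤ 1 + η := by
  refine le_trans (Cls.mass_mono (ok_nar (ok_blow h c0) hW) (cen_nar (cen_blow hc c0) W)
    ((hq.vld c0).nar W) ((cls_qC hq w).nar W) fun i hi => ?_) (hs C c0 hN)
  obtain ⟨c, j, hj, rfl⟩ := mem_qC.1 hi
  exact mem_vld.2 hj

/-- for most tuples of points of the fibre there is no short integer form on the joint system -/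
theorem cop_bad (h : S.Ok) (hc : S.Cen) {q : Finset ι} (hq : Cls S q) {A : Finset V}
    (hA : A.Nonempty) (hw : w ∉ A) (hσ : ∀ c, 1 ≤ σ c) {a K W η : ℝ} (ha : 1 ≤ a) (hK : 0 ≤ K)
    (hW : a * ((K + 1) * (Fintype.card C * q.card + 2 * A.card + 2)) ≤ W) (hW' : ∀ c, σ c ≤ W)
    (hm : (nar (blow S c0) W).mass (qC S c0 q w) ≤ 1 + η) :
    ∃ b ≤ 500 * 7 ^ A.card * η * vl S.G ((q \ S.sts A) \ S.st w),
      HasSum (fun y => S.wt ((q \ S.sts A) \ S.st w) y *
        ((∑' x : C → ↥((q \ S.sts A) ∩ S.st w) → ℤ,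
          (∏ c, gs (σ c ^ 2 • S.fg (q \ S.sts A) w (toR y)) (toR (x c))) *
            ind (¬ UF (nar (blow S c0) a) (qC S c0 q w) (aC c0 A) K
              (toR (asmC S c0 (q \ S.sts A) w y x)))) /
          ∏ c, vol (σ c ^ 2 • S.fg (q \ S.sts A) w (toR y)))) b := by
  have hr := cls_sdiff_sts hq A
  have hD : (0 : ℝ) ≤ Fintype.card C * q.card := by positivity
  have hA0 : (0 : ℝ) ≤ A.card := Nat.cast_nonneg _
  have h0 : 1 ≤ (K + 1) * (Fintype.card C * q.card + 2 * A.card + 2) := by nlinarith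
  have hWa : 1 ≤ W / a := by rw [le_div_iff₀' (by linarith)]; nlinarith
  have hW1 : a ≤ W := by nlinarith
  let s : BI S.fc c0 → ℝ := fun i => if i ∈ (blow S c0).sts (aC c0 A) then W else sg S c0 w σ i
  have h1 := sc_sg (S := S) (c0 := c0) (q \ S.sts A) w hσ
  have hs : Sc S c0 (q \ S.sts A) w s σ := by
    refine ⟨fun i j e => ?_, fun i => ?_, h1.pos, fun c j hj => ?_, fun j hj => ?_⟩
    · simp only [s, MS.mem_sts, e, h1.fc i j e]
    · simp only [s]
      split_ifs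
      exacts [by linarith, h1.one i]
    · exact (if_neg fun x => (mem_sdiff.1 (mem_inter.1 hj).1).2 ((cqC_sts hw c j).1 x)).trans
        (h1.st c j hj)
    · exact (if_neg fun x => (mem_sdiff.1 (mem_sdiff.1 hj).1).2 ((cqC_sts hw c0 j).1 x)).trans
        (h1.out j hj)
  have k3 := uf_markov (ok_blow h c0) (cen_blow hc c0) (cls_qC hq w) (A := aC c0 A)
    (hA.image _) hs.fc hs.one (c := a) (K := K) (W := W / a) (W' := W) (η := η) (by linarith)
    (by linarith) (fun i => by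
      simp only [s, sg]
      split_ifs
      exacts [le_rfl, hW' _, by linarith])
    (fun i hi => by simp only [s, if_pos hi]; field_simp) (by
      rw [card_aC, le_div_iff₀' (by linarith)]
      refine le_trans (mul_le_mul_of_nonneg_left (mul_le_mul_of_nonneg_left ?_ (by linarith))
        (by linarith)) hW
      have : ((qC S c0 q w).card : ℝ) ≤ Fintype.card C * q.card := by
        exact_mod_cast card_qC q w
      linarith) hK hm
  rw [qC_sdiff q hw, card_aC] at k3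
  have k4 := cop_sum h hc hr hs (g := fun Y => ind (¬ UF (nar (blow S c0) a) (qC S c0 q w)
    (aC c0 A) K (toR Y))) fun _ => abs_ind _
  have e : ∀ y, ∏ c, vol (σ c ^ 2 • S.fg (q \ S.sts A) w y) =
      ∏ c, vol (σ c ^ 2 • S.fg (q \ S.sts A) w 0) := fun y =>
    mul_left_cancel₀ (vl_pos h.pd _).ne' (((cop_split h hs).2 y).symm.trans ((cop_split h hs).2 0))
  have p0 : 0 < ∏ c, vol (σ c ^ 2 • S.fg (q \ S.sts A) w 0) :=
    prod_pos fun c _ => vol_pos ((h.fg_pos _ w 0).smul (pow_pos (hs.pos c) 2))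
  refine ⟨_, ?_, HasSum.congr_fun (k4.div_const (∏ c, vol (σ c ^ 2 • S.fg (q \ S.sts A) w 0)))
    fun y => by rw [e, mul_div_assoc]⟩
  rw [div_le_iff₀ p0, mul_assoc _ (vl _ _), ← (cop_split h hs).2 0]
  exact k3

end

end Vale.Agent.P057PI
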