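import Vale.Agent.P057FT.Gw

/-! The theorem of Freiman for a share of the centres of a narrow Gaussian. -/

set_option linter.all false

open Finset Matrix
open scoped BigOperators Real

namespace Vale.Agent.P057PI

open Vale.Agent.P057Z.Fr Vale.Agent.P057HU Vale.Agent.P057G Vale.Agent.P267.H775
  Vale.Agent.P057FT

noncomputable section

variable {n : Type} [Fintype n] [DecidableEq n]

theorem shift_cs {G : Matrix n n ℝ} (hG : G.PosDef) (c v : n → ℝ) {s : (n → ℤ) → ℝ}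
    (h0 : ∀ x, 0 ≤ s x) (h1 : ∀ x, s x ≤ 1) :
    (∑' x, gs G (toR x - c - v) * s x) ^ 2 ≤
      (∑' x, gs G (toR x - c) * s x) * (Real.exp (2 * π * qq G v) * th G 0) := by
  have a1 : ∀ x, |s x| ≤ 1 := fun x => by rw [abs_of_nonneg (h0 x)]; exact h1 x
  have s2 := (hasSum_th hG (c + (2 : ℝ) • v)).mul_left (Real.exp (2 * π * qq G v))
  refine (tsum_cs ((wt_gs hG c).summ a1) s2.summable (fun x => mul_nonneg (gs_pos _ _).le (h0 x))
    (fun x => mul_nonneg (Real.exp_pos _).le (gs_pos _ _).le)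
    (fun x => mul_nonneg (gs_pos _ _).le (h0 x)) fun x => ?_).2.trans ?_
  · rw [mul_pow, gs_sub_sq hG.1, sub_sub, mul_right_comm]
    refine mul_le_mul_of_nonneg_right (mul_le_mul_of_nonneg_left ?_ (gs_pos _ _).le)
      (mul_nonneg (Real.exp_pos _).le (gs_pos _ _).le)
    nlinarith [h0 x, h1 x]
  · rw [s2.tsum_eq]
    exact mul_le_mul_of_nonneg_left (mul_le_mul_of_nonneg_left (th_le_th_zero hG _)
      (Real.exp_pos _).le) (tsum_nonneg fun x => mul_nonneg (gs_pos _ _).le (h0 x))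

theorem wide_num (D : ℕ) : (√(1 - 1 / (2 * (D : ℝ) + 2)))⁻¹ ^ D ≤ 2 := by
  have hD : (0 : ℝ) ≤ D := Nat.cast_nonneg D
  have a1 : 1 / (2 * (D : ℝ) + 2) ≤ 1 / 2 := one_div_le_one_div_of_le (by norm_num) (by linarith)
  have a0 : 0 < 1 / (2 * (D : ℝ) + 2) := by positivity
  set c := 1 - 1 / (2 * (D : ℝ) + 2) with hc
  have c0 : 0 < c := by linarith
  have c1 : c ≤ √c := Real.le_sqrt_of_sq_le (by nlinarith)
  have c2 := one_add_mul_le_pow (a := -(1 / (2 * (D : ℝ) + 2))) (by linarith) D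
  rw [← sub_eq_add_neg, ← hc] at c2
  have c3 : (D : ℝ) * (1 / (2 * (D : ℝ) + 2)) ≤ 1 / 2 := by
    rw [mul_one_div, div_le_iff₀ (by positivity)]
    linarith
  rw [inv_pow, inv_le_comm₀ (by positivity) (by norm_num)]
  exact le_trans (by linarith) (pow_le_pow_left₀ c0.le c1 D)

/-- a set that is often hit by a point plus a narrow perturbation has a large weight -/
theorem rev_smooth {G2 G : Matrix n n ℝ} (h2 : G2.PosDef) (hG : G.PosDef)
    (h : ∀ y, (2 * (Fintype.card n : ℝ) + 2) * qq G2 y ≤ qq G y) (c : n → ℝ)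
    {s : (n → ℤ) → ℝ} (h0 : ∀ x, 0 ≤ s x) (h1 : ∀ x, s x ≤ 1) :
    ∑' b, gs G2 (toR b - c) * ∑' a, gs G (toR a) * s (b + a) ≤
      2 * th G 0 * √((∑' x, gs G2 (toR x - c) * s x) * th G2 0) := by
  have a1 : ∀ x, |s x| ≤ 1 := fun x => by rw [abs_of_nonneg (h0 x)]; exact h1 x
  have hD : (0 : ℝ) ≤ Fintype.card n := Nat.cast_nonneg _
  set B := √((∑' x, gs G2 (toR x - c) * s x) * th G2 0) with hB
  have b1 : 1 / (2 * (Fintype.card n : ℝ) + 2) ≤ 1 / 2 :=
    one_div_le_one_div_of_le (by norm_num) (by linarith)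
  have b0 : 0 < 1 / (2 * (Fintype.card n : ℝ) + 2) := by positivity
  set e := 1 - 1 / (2 * (Fintype.card n : ℝ) + 2) with he
  have e0 : 0 < e := by linarith
  have hA : 0 ≤ ∑' x, gs G2 (toR x - c) * s x :=
    tsum_nonneg fun x => mul_nonneg (gs_pos _ _).le (h0 x)
  rw [(wt_gs h2 c).swap (wt_gs0 hG) fun b a => a1 (b + a)]
  have s3 := (hasSum_th (hG.smul e0) 0).mul_right B
  refine (Summable.tsum_le_tsum (fun a => ?_) ((wt_gs0 hG).summ fun a =>
    (wt_gs h2 c).abs_le fun b => a1 (b + a)) s3.summable).trans ?_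
  · have e1 : ∑' b, gs G2 (toR b - c) * s (b + a) =
        ∑' x, gs G2 (toR x - c - toR a) * s x := by
      rw [← (Equiv.addRight a).tsum_eq fun x : n → ℤ => gs G2 (toR x - c - toR a) * s x]
      refine tsum_congr fun b => ?_
      simp only [Equiv.coe_addRight, toR_add]
      congr 2
      abel
    have e2 : ∑' x, gs G2 (toR x - c - toR a) * s x ≤ Real.exp (π * qq G2 (toR a)) * B := by
      refine (le_abs_self _).trans (abs_le_of_sq_le_sq
        ((shift_cs h2 c (toR a) h0 h1).trans (le_of_eq ?_))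
        (mul_nonneg (Real.exp_pos _).le (Real.sqrt_nonneg _)))
      rw [mul_pow, hB, Real.sq_sqrt (mul_nonneg hA (th_nonneg _ _)), ← Real.exp_nat_mul,
        show ((2 : ℕ) : ℝ) * (π * qq G2 (toR a)) = 2 * π * qq G2 (toR a) by push_cast; ring]
      generalize (∑' x, gs G2 (toR x - c) * s x) = u
      ring
    rw [e1, sub_zero]
    refine (mul_le_mul_of_nonneg_left e2 (gs_pos _ _).le).trans ?_
    rw [← mul_assoc]
    refine mul_le_mul_of_nonneg_right ?_ (Real.sqrt_nonneg _)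
    unfold gs
    rw [← Real.exp_add, Real.exp_le_exp, qq_smul_mat]
    have a2 : qq G2 (toR a) ≤ 1 / (2 * (Fintype.card n : ℝ) + 2) * qq G (toR a) := by
      rw [one_div_mul_eq_div, le_div_iff₀' (by positivity)]
      exact h _
    have a3 := mul_le_mul_of_nonneg_left a2 Real.pi_pos.le
    rw [he]
    linarith
  · rw [s3.tsum_eq]
    refine mul_le_mul_of_nonneg_right ((th_smul_le e0 (by linarith) hG 0).trans
      (mul_le_mul_of_nonneg_right (wide_num _) (th_nonneg _ _))) (Real.sqrt_nonneg _)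

variable {W : Type} [NormedAddCommGroup W] [NormedSpace ℝ W] {T : (n → ℝ) →ₗ[ℝ] W}

open Classical in
/-- a good centre outside a set that is rarely hit -/
theorem gauss_out' (hT : Function.Injective T) {G : Matrix n n ℝ} (hG : G.PosDef) {a δ K : ℝ}
    (hδ : 0 < δ) (ha : 0 ≤ a) (h : ∀ y, ((Fintype.card n : ℝ) + 2) * ‖T y‖ ^ 2 ≤ δ ^ 2 * qq G y)
    (S : Finset (n → ℤ)) (x : n → ℤ) (hS : ∀ s ∈ S, ‖T (zc (s - x))‖ ≤ a)
    (hc : (#(lb T (a + δ)) : ℝ) ≤ K * #S) (A : (n → ℤ) → Prop)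
    (hA : ∀ s ∈ S, ∑' u, gs G (toR u) * (if A (s + u) then 1 else 0) ≤ th G 0 / 2) :
    ∃ x' : n → ℤ, ¬ A x' ∧ 7 / 16 * th G 0 ≤ K * ∑ s ∈ S, gs G (toR s - toR x') := by
  have hB := bl_lb T hT
  have p1 := hB.card_pos (show 0 ≤ a + δ by linarith)
  have pS : (0 : ℝ) < #S := num_pos p1 (Nat.cast_nonneg _) hc
  have hK : 0 < K := num_pos p1 (not_lt.1 fun hK => by nlinarith) (hc.trans_eq (mul_comm _ _))
  have hth := th_pos hG 0
  set F := (tr (lb T) x (a + δ)).filter fun x' => ¬ A x' with hF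
  have h1 := card_nsmul_le_sum S (fun s => ∑ x' ∈ F, gs G (toR s - toR x'))
    (7 / 16 * th G 0) fun s hs => by
      have a1 := ball_mass hT hG hδ h
      have a2 : ∑ u ∈ lb T δ, gs G (toR u) * (if A (s + u) then 1 else 0) ≤ th G 0 / 2 :=
        le_trans (((wt_gs0 hG).summ (C := 1) fun u => by split_ifs <;> simp).sum_le_tsum _
          fun u _ => mul_nonneg (gs_pos _ _).le (by split_ifs <;> simp)) (hA s hs)
      have a3 : ∑ u ∈ lb T δ, gs G (toR u) = ∑ u ∈ lb T δ with ¬ A (s + u), gs G (toR u) +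
          ∑ u ∈ lb T δ, gs G (toR u) * (if A (s + u) then 1 else 0) := by
        rw [sum_filter, ← sum_add_distrib]
        refine sum_congr rfl fun u _ => ?_
        split_ifs <;> simp
      have e : ∑ u ∈ lb T δ with ¬ A (s + u), gs G (toR u) =
          ∑ x' ∈ ({u ∈ lb T δ | ¬ A (s + u)} : Finset _).image fun u => s + u,
            gs G (toR s - toR x') := by
        rw [sum_image fun a _ b _ e => add_left_cancel e]
        refine sum_congr rfl fun u _ => ?_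
        rw [← gs_neg]
        congr 1
        funext i
        simp
      refine le_trans (b := ∑ u ∈ lb T δ with ¬ A (s + u), gs G (toR u)) (by linarith) ?_
      rw [e]
      refine sum_le_sum_of_subset_of_nonneg (fun y hy => ?_) fun _ _ _ => (gs_pos _ _).le
      obtain ⟨u, hu, rfl⟩ := mem_image.1 hy
      refine mem_filter.2 ⟨?_, (mem_filter.1 hu).2⟩
      rw [hB.mem_tr, add_sub_right_comm]
      exact (hB.sz.add _ _).trans (add_le_add (hS s hs) ((hB.mem _ _).1 (mem_filter.1 hu).1))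
  rw [sum_comm, nsmul_eq_mul] at h1
  obtain ⟨x', hx, hx'⟩ := exists_max_image F (fun x' => ∑ s ∈ S, gs G (toR s - toR x')) (by
    rw [nonempty_iff_ne_empty]
    intro e
    rw [e, sum_empty] at h1
    nlinarith [mul_pos pS hth])
  have h2 := sum_le_card_nsmul _ _ _ hx'
  rw [nsmul_eq_mul] at h2
  have h3 : (#F : ℝ) ≤ #(lb T (a + δ)) := by
    rw [← card_tr (lb T) x]
    exact_mod_cast card_filter_le _ _
  refine ⟨x', (mem_filter.1 hx).2, le_of_mul_le_mul_left ((h1.trans h2).trans ?_) pS⟩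
  rw [← mul_assoc, mul_comm (#S : ℝ)]
  exact mul_le_mul_of_nonneg_right (h3.trans hc) (sum_nonneg fun _ _ => (gs_pos _ _).le)

/-- a chart on a piece of the window with the centre `x` -/
def Pc {κ W' : Type} [Fintype κ] [NormedAddCommGroup W'] [NormedSpace ℝ W']
    (T' : (κ → ℝ) →ₗ[ℝ] W') (g : (n → ℤ) → κ → ℝ) (P : (n → ℤ) → Prop) (G : Matrix n n ℝ)
    (R τ ε B : ℝ) (x : n → ℤ) : Prop :=
  ∃ (E : Finset (n → ℤ)) (r : ℕ) (θ : Fin r → n → ℝ) (cen : Fin r → ℝ)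
    (m : (n → ℤ) → Fin r → ℤ) (F1 : (n → ℝ) →ₗ[ℝ] (κ → ℝ)) (F2 : (Fin r → ℝ) →ₗ[ℝ] (κ → ℝ))
    (c : κ → ℝ), (r : ℝ) ≤ R ∧ th G 0 * τ ^ r ≤ B * ∑ s ∈ E, gs G (toR s - toR x) ∧
    ∀ s ∈ E, P s ∧ (∀ i, |θ i ⬝ᵥ toR s - cen i - m s i| ≤ τ) ∧
      Cz T' ε (g s - F1 (toR s) - F2 (toR (m s)) - c)

open Classical in
theorem Ch.out {κ W' : Type} [Fintype κ] [NormedAddCommGroup W'] [NormedSpace ℝ W']
    {T' : (κ → ℝ) →ₗ[ℝ] W'} {g : (n → ℤ) → κ → ℝ} {S : Finset (n → ℤ)} {r : ℕ}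
    {θ : Fin r → n → ℝ} {F1 : (n → ℝ) →ₗ[ℝ] (κ → ℝ)} {F2 : (Fin r → ℝ) →ₗ[ℝ] (κ → ℝ)}
    {a0 τ0 ε K τ R B : ℝ} (hch : Ch T T' g S θ F1 F2 a0 τ0 ε) (hT : Function.Injective T)
    (ha0 : 0 < a0) (hK : ∀ a, 0 ≤ a → a ≤ a0 → ∃ x,
      (#(lb T a) : ℝ) ≤ K * #{s ∈ S | ‖T (zc (s - x))‖ ≤ a})
    {G : Matrix n n ℝ} (hG : G.PosDef) (h : ∀ y, ((Fintype.card n : ℝ) + 2) *
      (12 * Fintype.card n + 4) ^ 2 * ‖T y‖ ^ 2 ≤ a0 ^ 2 * qq G y)
    (hτ : 0 < τ) (hτ0 : τ ≤ τ0) (hτ1 : τ ≤ 1) (hR : (r : ℝ) ≤ R) (hB : 5 * K * 2 ^ r ≤ B)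
    {P : (n → ℤ) → Prop} (hP : ∀ s ∈ S, P s) (A : (n → ℤ) → Prop)
    (hA : ∀ s ∈ S, ∑' u, gs G (toR u) * (if A (s + u) then 1 else 0) ≤ th G 0 / 2) :
    ∃ x, ¬ A x ∧ Pc T' g P G R τ ε B x := by
  have hb := bl_lb T hT
  have hD0 : (0 : ℝ) ≤ Fintype.card n := Nat.cast_nonneg _
  set δ := a0 / (12 * Fintype.card n + 4) with hδ
  have hδ0 : 0 < δ := by positivity
  obtain ⟨a, h1, h2, h3⟩ := hb.reg2 hδ0
  have h4 : a + δ ≤ a0 / 2 := h2.trans_eq (by rw [hδ]; field_simp; ring)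
  obtain ⟨x0, hx0⟩ := hK a (by linarith) (by linarith)
  have pa := hb.card_pos (show 0 ≤ a by linarith)
  have hK0 : 0 < K := num_pos pa (not_lt.1 fun hK => by
      have := mul_nonpos_of_nonpos_of_nonneg hK.le
        (Nat.cast_nonneg (α := ℝ) #{s ∈ S | ‖T (zc (s - x0))‖ ≤ a})
      linarith) (hx0.trans_eq (mul_comm _ _))
  set M := ⌈1 / τ⌉₊ with hM
  have hM1 : 1 / τ ≤ M := Nat.le_ceil _
  have hM2 : (M : ℝ) < 1 / τ + 1 := Nat.ceil_lt_add_one (by positivity)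
  have hM0 : 1 ≤ M := Nat.ceil_pos.2 (by positivity)
  have hMp : (0 : ℝ) < M := by exact_mod_cast hM0
  have hM3 : (M : ℝ) * τ ≤ 2 := by
    have := mul_le_mul_of_nonneg_right hM2.le hτ.le
    rw [add_mul, div_mul_cancel₀ _ hτ.ne'] at this
    linarith
  have hM4 : 1 / (M : ℝ) ≤ τ := by
    rw [div_le_iff₀ hτ] at hM1
    rw [div_le_iff₀ hMp]
    linarith
  obtain ⟨E, hE, cE, hAr⟩ := arcs {s ∈ S | ‖T (zc (s - x0))‖ ≤ a} (fun s i => θ i ⬝ᵥ zc s) hM0
  have cE' : (#{s ∈ S | ‖T (zc (s - x0))‖ ≤ a} : ℝ) ≤ M ^ r * #E := by exact_mod_cast cE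
  have hES : E ⊆ S := hE.trans (filter_subset _ _)
  obtain ⟨c, hc⟩ := hch.affine hES (x := x0)
    (fun s hs => (mem_filter.1 (hE hs)).2.trans (by linarith)) fun s hs s' hs' i =>
      (hAr s hs s' hs' i).trans (hM4.trans hτ0)
  have k1 : (#(lb T (a + δ)) : ℝ) ≤ 2 * K * M ^ r * #E := by
    have := mul_le_mul_of_nonneg_left cE' hK0.le
    linarith
  obtain ⟨x, hx, hx'⟩ := gauss_out' hT hG hδ0 (show 0 ≤ a by linarith) (fun y => by
      rw [hδ, div_pow, div_mul_eq_mul_div, le_div_iff₀ (by positivity), mul_right_comm]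
      exact h y) E x0 (fun s hs => (mem_filter.1 (hE hs)).2) k1 A fun s hs => hA s (hES hs)
  have hth := th_pos hG 0
  obtain ⟨s0, hs0⟩ : E.Nonempty := by
    rw [nonempty_iff_ne_empty]
    rintro rfl
    rw [sum_empty, mul_zero] at hx'
    linarith
  refine ⟨x, hx, E, r, θ, fun i => Int.fract (θ i ⬝ᵥ zc s0), fl θ, F1, F2, c, hR, ?_,
    fun s hs => ⟨hP s (hES hs), fun i => ?_, hc s hs⟩⟩
  · set A' := ∑ s ∈ E, gs G (toR s - toR x)
    have hA0 : 0 ≤ A' := sum_nonneg fun s _ => (gs_pos _ _).le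
    have a1 : th G 0 ≤ 5 * K * M ^ r * A' := by
      have : 0 ≤ K * M ^ r * A' := by positivity
      linarith
    have a2 : (M : ℝ) ^ r * τ ^ r ≤ 2 ^ r := by
      rw [← mul_pow]
      exact pow_le_pow_left₀ (by positivity) hM3 r
    calc th G 0 * τ ^ r ≤ 5 * K * M ^ r * A' * τ ^ r :=
          mul_le_mul_of_nonneg_right a1 (by positivity)
      _ = 5 * K * (M ^ r * τ ^ r) * A' := by ring
      _ ≤ 5 * K * 2 ^ r * A' := by gcongr
      _ ≤ B * A' := mul_le_mul_of_nonneg_right hB hA0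
  · refine le_trans (le_of_eq ?_) ((hAr s hs s0 hs0 i).trans hM4)
    congr 1
    change _ - _ - ((⌊θ i ⬝ᵥ zc s⌋ : ℤ) : ℝ) = θ i ⬝ᵥ zc s - ⌊θ i ⬝ᵥ zc s⌋ - _
    rw [sub_right_comm]
    rfl

open Classical in
/-- the theorem of Freiman: a share of the narrow windows contains a chart -/
theorem frt_share : ∃ X0 : ℝ, ∀ X : ℝ, X0 ≤ X →
    ∀ (n κ W W' : Type) [Fintype n] [DecidableEq n] [Fintype κ] [DecidableEq κ]
      [NormedAddCommGroup W] [NormedSpace ℝ W] [NormedAddCommGroup W'] [NormedSpace ℝ W']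
      (T : (n → ℝ) →ₗ[ℝ] W) (T' : (κ → ℝ) →ₗ[ℝ] W') (f g ζ : (n → ℤ) → κ → ℝ)
      (rel : (n → ℤ) → (n → ℤ) → Prop) (G1 G2 G : Matrix n n ℝ) (c1 c2 : n → ℝ) (ρ τ : ℝ),
      Function.Injective T → Function.Injective T' → (Fintype.card n : ℝ) ≤ Real.exp X →
      (Fintype.card κ : ℝ) ≤ Real.exp X → 0 < ρ → G1.PosDef → G2.PosDef → G.PosDef →
      (∀ y, qq G1 y ≤ ‖T y‖ ^ 2) → (∀ y, qq G2 y ≤ ‖T y‖ ^ 2) →
      (∀ y, Real.exp (5 * X ^ 2) * ‖T y‖ ^ 2 ≤ qq G y) → 0 < τ → τ ≤ Real.exp (-X ^ 2) →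
      th G2 0 ≤ 2 * th G2 c2 →
      (∀ k : κ → ℤ, ‖T' (zc k)‖ ≤ Real.exp (X ^ 2) * ρ → k = 0) →
      (∀ a b, rel a b → Cz T' ρ (f a + g b - ζ (a + b))) →
      18 * (th G1 c1 * th G2 c2) ≤ Real.exp X *
        ∑' a, gs G1 (toR a - c1) * ∑' b, gs G2 (toR b - c2) * (if rel a b then 1 else 0) →
      th G2 c2 ≤ Real.exp (2 * X) * ∑' x, gs G2 (toR x - c2) *
        if Pc T' g (fun s => ∃ a, rel a s) G (X ^ 7) τ (Real.exp (X ^ 2) * ρ) (Real.exp (X ^ 9)) x
          then 1 else 0 := by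
  obtain ⟨X0, hb⟩ := frt_gauss
  refine ⟨max X0 100, fun X hX n κ W W' _ _ _ _ _ _ _ _ T T' f g ζ rel G1 G2 G c1 c2 ρ τ hT hT' hn
    hκ hρ h1 h2 hG q1 q2 q3 hτ hτ0 hth hΓ hr hc => ?_⟩
  have hX0 : 100 ≤ X := (le_max_right _ _).trans hX
  have e1 := Real.add_one_le_exp X
  have pe := Real.exp_pos X
  have hD0 : (0 : ℝ) ≤ Fintype.card n := Nat.cast_nonneg _
  have a2 : 12 * (Fintype.card n : ℝ) + 4 ≤ Real.exp (2 * X) := by rw [exp_two]; nlinarith
  set A := Pc T' g (fun s => ∃ a, rel a s) G (X ^ 7) τ (Real.exp (X ^ 2) * ρ) (Real.exp (X ^ 9))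
    with hA
  by_contra hno
  rw [not_le] at hno
  have i0 : ∀ (p : Prop) [Decidable p], (0 : ℝ) ≤ if p then 1 else 0 :=
    fun p _ => by split_ifs <;> simp
  have i1 : ∀ (p : Prop) [Decidable p], (if p then 1 else 0 : ℝ) ≤ 1 :=
    fun p _ => by split_ifs <;> simp
  have i2 : ∀ (p : Prop) [Decidable p], |(if p then 1 else 0 : ℝ)| ≤ 1 :=
    fun p _ => by split_ifs <;> simp
  have t1 := th_pos h1 c1
  have t2 := th_pos h2 c2
  have tG := th_pos hG 0
  let bad : (n → ℤ) → Prop := fun b =>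
    th G 0 / 2 < ∑' u, gs G (toR u) * if A (b + u) then 1 else 0
  have w1 := wt_gs h1 c1
  have w2 := wt_gs h2 c2
  have hbad : Real.exp X * ∑' b, gs G2 (toR b - c2) * (if bad b then 1 else 0) ≤
      9 * th G2 c2 := by
    have b1 := rev_smooth h2 hG (fun y => by
      refine le_trans ?_ (q3 y)
      refine mul_le_mul (le_trans (by linarith) (a2.trans (Real.exp_le_exp.2 (by nlinarith))))
        (q2 y) (qq_nonneg h2.posSemidef y) (Real.exp_pos _).le) c2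
      (s := fun x => if A x then 1 else 0) (fun _ => i0 _) fun _ => i1 _
    have b2 : th G 0 / 2 * ∑' b, gs G2 (toR b - c2) * (if bad b then 1 else 0) ≤
        ∑' b, gs G2 (toR b - c2) * ∑' u, gs G (toR u) * if A (b + u) then 1 else 0 := by
      rw [← tsum_mul_left]
      refine ((w2.summ fun _ => i2 _).mul_left _).tsum_le_tsum (fun b => ?_)
        (w2.summ fun b => (wt_gs0 hG).abs_le fun _ => i2 _)
      rw [mul_left_comm]
      refine mul_le_mul_of_nonneg_left ?_ (gs_pos _ _).le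
      by_cases hb : bad b
      · rw [if_pos hb, mul_one]
        exact le_of_lt hb
      · rw [if_neg hb, mul_zero]
        exact tsum_nonneg fun u => mul_nonneg (gs_pos _ _).le (i0 _)
    have b3 : Real.exp X * √((∑' x, gs G2 (toR x - c2) * if A x then 1 else 0) * th G2 0) ≤
        2 * th G2 c2 := by
      rw [← Real.sqrt_sq pe.le, ← Real.sqrt_mul (sq_nonneg _), Real.sqrt_le_left (by positivity),
        sq, ← exp_two, ← mul_assoc]
      have := mul_le_mul hno.le hth (th_nonneg _ _) t2.le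
      nlinarith
    refine le_of_mul_le_mul_left ?_ (half_pos tG)
    have b4 := mul_le_mul_of_nonneg_left (b2.trans b1) pe.le
    have b5 := mul_le_mul_of_nonneg_left b3 tG.le
    nlinarith [mul_pos tG t2]
  obtain ⟨rel', hrel⟩ : ∃ rel' : (n → ℤ) → (n → ℤ) → Prop, ∀ a b, rel' a b ↔ rel a b ∧ ¬ bad b :=
    ⟨_, fun _ _ => Iff.rfl⟩
  obtain ⟨S, r, θ, F1, F2, s2, s3, -, s5, s6, -⟩ := hb X ((le_max_left _ _).trans hX) n κ W W' T T'
    f g ζ rel' G1 G2 c1 c2 ρ hT hT' hn hκ hρ h1 h2 q1 q2 hΓ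
    (fun a b h => hr a b ((hrel a b).1 h).1) (by
      have c1' : ∑' a, gs G1 (toR a - c1) * ∑' b, gs G2 (toR b - c2) * (if rel a b then 1 else 0) ≤
          ∑' a, gs G1 (toR a - c1) * ∑' b, gs G2 (toR b - c2) *
            (if rel' a b then 1 else 0) +
          th G1 c1 * ∑' b, gs G2 (toR b - c2) * (if bad b then 1 else 0) := by
        rw [← ((hasSum_th h1 c1).mul_right _).tsum_eq, ← Summable.tsum_add
          (w1.summ fun a => w2.abs_le fun _ => i2 _) ((hasSum_th h1 c1).mul_right _).summable]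
        refine Summable.tsum_le_tsum (fun a => ?_) (w1.summ fun a => w2.abs_le fun _ => i2 _)
          ((w1.summ fun a => w2.abs_le fun _ => i2 _).add
            ((hasSum_th h1 c1).mul_right _).summable)
        rw [← mul_add, ← Summable.tsum_add (w2.summ fun _ => i2 _) (w2.summ fun _ => i2 _)]
        refine mul_le_mul_of_nonneg_left (Summable.tsum_le_tsum (fun b => ?_)
          (w2.summ fun _ => i2 _) ((w2.summ fun _ => i2 _).add (w2.summ fun _ => i2 _)))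
          (gs_pos _ _).le
        rw [← mul_add]
        refine mul_le_mul_of_nonneg_left ?_ (gs_pos _ _).le
        by_cases p1 : rel a b <;> by_cases p2 : bad b <;> simp [p1, p2, hrel]
      have c2' := mul_le_mul_of_nonneg_left c1' pe.le
      have c3' := mul_le_mul_of_nonneg_left hbad t1.le
      nlinarith)
  obtain ⟨x, hx, hx'⟩ := Ch.out (B := Real.exp (X ^ 9)) s5 hT (Real.exp_pos _) s6 hG (fun y => by
      refine le_trans ?_ (mul_le_mul_of_nonneg_left (q3 y) (sq_nonneg _))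
      rw [← mul_assoc]
      exact mul_le_mul_of_nonneg_right (num_h hX0 hD0 a2).1 (sq_nonneg _)) hτ hτ0
    (hτ0.trans (Real.exp_le_one_iff.2 (neg_nonpos.2 (sq_nonneg X)))) s3
    (le_trans (by
      have : (0 : ℝ) ≤ r := Nat.cast_nonneg r
      gcongr
      linarith) (num_g hX0 s3)) (P := fun s => ∃ a, rel a s)
    (fun s hs => (s2 s hs).imp fun a h => ((hrel _ _).1 h).1) A
    fun s hs => not_lt.1 ((hrel _ _).1 (s2 s hs).choose_spec).2
  exact hx hx'

open Classical in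
/-- from anchors and centres near them to centres -/
theorem anchors {H G2 : Matrix n n ℝ} (hH : H.PosDef) (h2 : G2.PosDef)
    (h : ∀ y, (2 * (Fintype.card n : ℝ) + 2) * qq H y ≤ qq G2 y) (hf : th H 0 ≤ 2 * vol H)
    (An : (n → ℤ) → Prop) (Gd : (n → ℤ) → (n → ℤ) → Prop) {δ β : ℝ} (hδ : 0 ≤ δ) (hβ : 0 ≤ β)
    (h1 : δ * vol H ≤ ∑' o, gs H (toR o) * if An o then 1 else 0)
    (hg : ∀ o, An o → β * th G2 0 ≤ ∑' x, gs G2 (toR x) * if Gd o x then 1 else 0) :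
    (δ * β) ^ 2 / 8 * vol H ≤
      ∑' o, gs H (toR o) * if ∃ o1 x, An o1 ∧ Gd o1 x ∧ o = o1 + x then 1 else 0 := by
  have i0 : ∀ (p : Prop) [Decidable p], (0 : ℝ) ≤ if p then 1 else 0 :=
    fun p _ => by split_ifs <;> simp
  have i1 : ∀ (p : Prop) [Decidable p], (if p then 1 else 0 : ℝ) ≤ 1 :=
    fun p _ => by split_ifs <;> simp
  have i2 : ∀ (p : Prop) [Decidable p], |(if p then 1 else 0 : ℝ)| ≤ 1 :=
    fun p _ => by split_ifs <;> simp
  have b1 := rev_smooth hH h2 h 0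
    (s := fun o => if ∃ o1 x, An o1 ∧ Gd o1 x ∧ o = o1 + x then 1 else 0) (fun _ => i0 _)
    fun _ => i1 _
  simp only [sub_zero] at b1
  set A := ∑' o, gs H (toR o) * if ∃ o1 x, An o1 ∧ Gd o1 x ∧ o = o1 + x then 1 else 0 with hA
  have hA0 : 0 ≤ A := tsum_nonneg fun _ => mul_nonneg (gs_pos _ _).le (i0 _)
  have t2 := th_pos h2 0
  have v0 := vol_pos hH
  have b2 : β * th G2 0 * ∑' o, gs H (toR o) * (if An o then 1 else 0) ≤
      ∑' b, gs H (toR b) * ∑' a, gs G2 (toR a) *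
        if ∃ o1 x, An o1 ∧ Gd o1 x ∧ b + a = o1 + x then 1 else 0 := by
    rw [← tsum_mul_left]
    refine (((wt_gs0 hH).summ fun _ => i2 _).mul_left _).tsum_le_tsum (fun b => ?_)
      ((wt_gs0 hH).summ fun b => (wt_gs0 h2).abs_le fun _ => i2 _)
    rw [mul_left_comm]
    refine mul_le_mul_of_nonneg_left ?_ (gs_pos _ _).le
    by_cases hb : An b
    · rw [if_pos hb, mul_one]
      refine (hg b hb).trans (((wt_gs0 h2).summ fun _ => i2 _).tsum_le_tsum (fun a => ?_)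
        ((wt_gs0 h2).summ fun _ => i2 _))
      refine mul_le_mul_of_nonneg_left ?_ (gs_pos _ _).le
      by_cases ha : Gd b a
      · rw [if_pos ha, if_pos ⟨b, a, hb, ha, rfl⟩]
      · rw [if_neg ha]
        exact i0 _
    · rw [if_neg hb, mul_zero]
      exact tsum_nonneg fun u => mul_nonneg (gs_pos _ _).le (i0 _)
  have b3 := (mul_le_mul_of_nonneg_left h1 (mul_nonneg hβ t2.le)).trans (b2.trans b1)
  have b4 : δ * β * vol H ≤ 2 * √(A * th H 0) :=
    le_of_mul_le_mul_left (by nlinarith) t2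
  have b5 := pow_le_pow_left₀ (by positivity) b4 2
  rw [mul_pow 2, Real.sq_sqrt (mul_nonneg hA0 (th_nonneg _ _))] at b5
  have b6 := mul_le_mul_of_nonneg_left hf hA0
  refine le_of_mul_le_mul_left ?_ v0
  nlinarith

end

end Vale.Agent.P057PI
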